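import Crest.Agent.Helper29.TriArea

/-!
# Area toolkit, part 2 (row 211): corollaries of `TriArea.lean`

* `volume_convexHull_triple` (A1): planar triangle, determinant form.
* `euclideanHausdorff_image_linearIsometry` (A2).
* `euclideanHausdorff_triangle_add` (A3).
* `convexHull_parallelogram`, `euclideanHausdorff_convexHull_parallelogram` (four-point form of A4).
* finiteness (A6): `euclideanHausdorff_two_lt_top_of_subset_submodule`,
  `euclideanHausdorff_two_lt_top_of_orthogonal`, `euclideanHausdorff_two_proj_image_lt_top`.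
-/

set_option autoImplicit false
open MeasureTheory Measure Module
open scoped ENNReal NNReal

namespace Crest.Agent.Helper29

/-- (A1) Area of a planar triangle, determinant form. -/
theorem volume_convexHull_triple (p q r : E2) :
    volume (convexHull ℝ ({p, q, r} : Set E2)) =
      ENNReal.ofReal (|(q - p) 0 * (r - p) 1 - (q - p) 1 * (r - p) 0| / 2) := by
  rw [← EuclideanSpace.euclideanHausdorffMeasure_eq_volume 2, euclideanHausdorff_triangle,
    triArea_eq_gramArea, ← abs_det_eq_gramArea]

section General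
variable {E : Type*} [NormedAddCommGroup E] [InnerProductSpace ℝ E] [MeasurableSpace E]
  [BorelSpace E]

/-- (A2) Isometric copies of planar sets. -/
theorem euclideanHausdorff_image_linearIsometry (ι : E2 →ₗᵢ[ℝ] E) (S : Set E2) :
    μHE[2] (ι '' S) = volume S := by
  rw [ι.isometry.euclideanHausdorffMeasure_image,
    EuclideanSpace.euclideanHausdorffMeasure_eq_volume 2]

/-- (A3) Triangle with vertex `p` and edge vectors `a`, `b`. -/
theorem euclideanHausdorff_triangle_add (p a b : E) :
    μHE[2] (convexHull ℝ ({p, p + a, p + b} : Set E)) = ENNReal.ofReal (gramArea a b / 2) := by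
  rw [euclideanHausdorff_triangle, triArea_eq_gramArea]
  simp

omit [MeasurableSpace E] [BorelSpace E] in
/-- The four-point description of a parallelogram. -/
theorem convexHull_parallelogram (p A B : E) :
    convexHull ℝ ({p, p + A, p + B, p + A + B} : Set E) =
      {x : E | ∃ s ∈ Set.Icc (0 : ℝ) 1, ∃ t ∈ Set.Icc (0 : ℝ) 1, x = p + s • A + t • B} := by
  apply Set.Subset.antisymm
  · have hC : Convex ℝ {x : E | ∃ s ∈ Set.Icc (0 : ℝ) 1, ∃ t ∈ Set.Icc (0 : ℝ) 1,
        x = p + s • A + t • B} := by
      rintro _ ⟨s, hs, t, ht, rfl⟩ _ ⟨s', hs', t', ht', rfl⟩ α β hα hβ hαβ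
      have hβ' : β = 1 - α := by linarith
      subst hβ'
      refine ⟨α * s + (1 - α) * s', ⟨by nlinarith [hs.1, hs'.1], by nlinarith [hs.2, hs'.2]⟩,
        α * t + (1 - α) * t', ⟨by nlinarith [ht.1, ht'.1], by nlinarith [ht.2, ht'.2]⟩, ?_⟩
      module
    refine convexHull_min ?_ hC
    rintro y (rfl | rfl | rfl | rfl)
    · exact ⟨0, by simp, 0, by simp, by simp⟩
    · exact ⟨1, by simp, 0, by simp, by simp⟩
    · exact ⟨0, by simp, 1, by simp, by simp⟩
    · exact ⟨1, by simp, 1, by simp, by simp⟩
  · rintro _ ⟨s, hs, t, ht, rfl⟩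
    have hc := convex_convexHull ℝ ({p, p + A, p + B, p + A + B} : Set E)
    have h0 : p ∈ convexHull ℝ ({p, p + A, p + B, p + A + B} : Set E) :=
      subset_convexHull ℝ _ (by simp)
    have h1 : p + A ∈ convexHull ℝ ({p, p + A, p + B, p + A + B} : Set E) :=
      subset_convexHull ℝ _ (by simp)
    have h2 : p + B ∈ convexHull ℝ ({p, p + A, p + B, p + A + B} : Set E) :=
      subset_convexHull ℝ _ (by simp)
    have h3 : p + A + B ∈ convexHull ℝ ({p, p + A, p + B, p + A + B} : Set E) :=
      subset_convexHull ℝ _ (by simp)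
    have key := hc.sum_mem (t := (Finset.univ : Finset (Fin 4)))
      (w := ![(1 - s) * (1 - t), s * (1 - t), (1 - s) * t, s * t])
      (z := ![p, p + A, p + B, p + A + B])
      (by
        intro i _
        fin_cases i
        · exact mul_nonneg (by linarith [hs.2]) (by linarith [ht.2])
        · exact mul_nonneg hs.1 (by linarith [ht.2])
        · exact mul_nonneg (by linarith [hs.2]) ht.1
        · exact mul_nonneg hs.1 ht.1)
      (by simp [Fin.sum_univ_four]; ring)
      (by intro i _; fin_cases i <;> simp [h0, h1, h2, h3])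
    have h4 : p + s • A + t • B = ∑ i : Fin 4,
        (![(1 - s) * (1 - t), s * (1 - t), (1 - s) * t, s * t] i) •
          (![p, p + A, p + B, p + A + B] i) := by
      simp [Fin.sum_univ_four]
      module
    rw [h4]; exact key

/-- Four-point form of the parallelogram area. -/
theorem euclideanHausdorff_convexHull_parallelogram (p A B : E) :
    μHE[2] (convexHull ℝ ({p, p + A, p + B, p + A + B} : Set E)) =
      ENNReal.ofReal (gramArea A B) := by
  rw [convexHull_parallelogram, euclideanHausdorff_parallelogram]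

/-- (A6) A bounded subset of a 2-dimensional subspace has finite area. -/
theorem euclideanHausdorff_two_lt_top_of_subset_submodule (W : Submodule ℝ E)
    (hW : finrank ℝ W = 2) {B : Set E} (hB : Bornology.IsBounded B) (hBW : B ⊆ W) :
    μHE[2] B < ⊤ := by
  have : FiniteDimensional ℝ W := Module.finite_of_finrank_pos (by omega)
  have h1 : B = Subtype.val '' ((Subtype.val : W → E) ⁻¹' B) := by
    ext x
    constructor
    · intro hx; exact ⟨⟨x, hBW hx⟩, hx, rfl⟩
    · rintro ⟨y, hy, rfl⟩; exact hy
  have h2 : (μHE[2] : Measure W) = volume := by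
    have := InnerProductSpace.euclideanHausdorffMeasure_eq_volume (V := W)
    rwa [hW] at this
  rw [h1, isometry_subtype_coe.euclideanHausdorffMeasure_image, h2]
  apply Bornology.IsBounded.measure_lt_top
  rw [Metric.isBounded_iff] at hB ⊢
  obtain ⟨C, hC⟩ := hB
  exact ⟨C, fun x hx y hy => hC hx hy⟩

end General

/-- (A6) A bounded subset of the plane `v^⊥` of `ℝ³` has finite area. -/
theorem euclideanHausdorff_two_lt_top_of_orthogonal (v : EuclideanSpace ℝ (Fin 3)) (hv : v ≠ 0)
    {B : Set (EuclideanSpace ℝ (Fin 3))} (hB : Bornology.IsBounded B)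
    (hBv : ∀ x ∈ B, inner ℝ x v = 0) : μHE[2] B < ⊤ := by
  have hfact : Fact (finrank ℝ (EuclideanSpace ℝ (Fin 3)) = 2 + 1) := ⟨by simp⟩
  have hW : finrank ℝ (Submodule.span ℝ {v})ᗮ = 2 := Submodule.finrank_orthogonal_span_singleton hv
  refine euclideanHausdorff_two_lt_top_of_subset_submodule _ hW hB ?_
  intro x hx
  rw [SetLike.mem_coe, Submodule.mem_orthogonal_singleton_iff_inner_left]
  exact hBv x hx

/-- (A6) The shadow of a bounded set along a unit vector has finite area. -/
theorem euclideanHausdorff_two_proj_image_lt_top (v : EuclideanSpace ℝ (Fin 3)) (hv : ‖v‖ = 1)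
    {K : Set (EuclideanSpace ℝ (Fin 3))} (hK : Bornology.IsBounded K) :
    μHE[2] ((fun y : EuclideanSpace ℝ (Fin 3) => y - inner ℝ y v • v) '' K) < ⊤ := by
  have hv0 : v ≠ 0 := by
    intro h; rw [h, norm_zero] at hv; exact zero_ne_one hv
  refine euclideanHausdorff_two_lt_top_of_orthogonal v hv0 ?_ ?_
  · -- the projection is 2-Lipschitz
    obtain ⟨C, hC⟩ := hK.exists_norm_le
    rw [isBounded_iff_forall_norm_le]
    refine ⟨C + C, ?_⟩
    rintro _ ⟨y, hy, rfl⟩
    have h1 : ‖inner ℝ y v • v‖ ≤ ‖y‖ := by
      rw [norm_smul, hv, mul_one]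
      have := abs_real_inner_le_norm y v
      rw [hv, mul_one] at this
      exact this
    calc ‖y - inner ℝ y v • v‖ ≤ ‖y‖ + ‖inner ℝ y v • v‖ := norm_sub_le _ _
      _ ≤ C + C := add_le_add (hC y hy) (h1.trans (hC y hy))
  · rintro _ ⟨y, hy, rfl⟩
    rw [inner_sub_left, inner_smul_left, real_inner_self_eq_norm_sq, hv]
    simp

/-- (A6) The shadow of a tetrahedron (or any hull of finitely many points) has finite area. -/
theorem euclideanHausdorff_two_proj_convexHull_lt_top (v : EuclideanSpace ℝ (Fin 3))
    (hv : ‖v‖ = 1) {s : Set (EuclideanSpace ℝ (Fin 3))} (hs : s.Finite) :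
    μHE[2] ((fun y : EuclideanSpace ℝ (Fin 3) => y - inner ℝ y v • v) '' convexHull ℝ s) < ⊤ :=
  euclideanHausdorff_two_proj_image_lt_top v hv (isBounded_convexHull.2 hs.isBounded)

end Crest.Agent.Helper29
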